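import Vale.Agent.P269.G1I.T.H410_LamcMul
import Vale.Agent.P269.G1I.Conc

/-!
# [Q3] the Poincaré pairing on the small ambient phase space
-/

namespace Vale.Agent.P269.G1.H333

open Finset.HasAntidiagonal (antidiagonal)
open Vale.Agent.P269.CI

variable {X : CompleteIntersection} {F : ℕ → ℕ → List (Ins X) → ℂ}

theorem cst_eq (c : ℂ) : cst X c =
    ((MvPowerSeries.C (σ := Fin (X.dim + 1))).comp (PowerSeries.C (R := ℂ))) c := rfl

theorem cst_mul (a b : ℂ) : cst X (a * b) = cst X a * cst X b := by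
  simp only [cst_eq, map_mul]

theorem cst_add (a b : ℂ) : cst X (a + b) = cst X a + cst X b := by
  simp only [cst_eq, map_add]

theorem cst_zero : cst X 0 = 0 := by simp only [cst_eq, map_zero]

theorem cst_one : cst X 1 = 1 := by simp only [cst_eq, map_one]

theorem cst_natCast (n : ℕ) : cst X (n : ℂ) = (n : RR X) := by
  simp only [cst_eq, map_natCast]

theorem cst_sum {ι : Type*} (s : Finset ι) (f : ι → ℂ) :
    cst X (∑ i ∈ s, f i) = ∑ i ∈ s, cst X (f i) := by
  simp only [cst_eq, map_sum]

theorem smul_eq_cst (c : ℂ) (f : RR X) : c • f = cst X c * f := by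
  unfold cst
  ext α d
  rw [MvPowerSeries.coeff_C_mul, PowerSeries.coeff_C_mul]
  rfl

theorem deg_ne (X : CompleteIntersection) : deg X ≠ 0 := by
  unfold deg
  have : X.degs.prod ≠ 0 := by
    rw [Ne, List.prod_eq_zero_iff]
    intro h
    have := X.degs_pos 0 h
    omega
  exact_mod_cast this

theorem pairing_symm (i j : Fin (X.dim + 1)) :
    pairing X (Sum.inl i) (Sum.inl j) = pairing X (Sum.inl j) (Sum.inl i) := by
  change (if (i : ℕ) + j = X.dim then deg X else 0) = if (j : ℕ) + i = X.dim then deg X else 0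
  rw [add_comm]

theorem pairingInv_symm (i j : Fin (X.dim + 1)) :
    pairingInv X (Sum.inl i) (Sum.inl j) = pairingInv X (Sum.inl j) (Sum.inl i) := by
  change (if (i : ℕ) + j = X.dim then (deg X)⁻¹ else 0) =
    if (j : ℕ) + i = X.dim then (deg X)⁻¹ else 0
  rw [add_comm]

/-- the complementary index -/
def co (i : Fin (X.dim + 1)) : Fin (X.dim + 1) := ⟨X.dim - i, by omega⟩

theorem add_eq_iff (i j : Fin (X.dim + 1)) : (i : ℕ) + j = X.dim ↔ j = co i := by
  constructor
  · intro h
    apply Fin.ext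
    change (j : ℕ) = X.dim - i
    omega
  · intro h
    rw [h]
    change (i : ℕ) + (X.dim - i) = X.dim
    omega

theorem pairing_eq (i j : Fin (X.dim + 1)) :
    pairing X (Sum.inl i) (Sum.inl j) = if j = co i then deg X else 0 := by
  change (if (i : ℕ) + j = X.dim then deg X else 0) = _
  simp only [add_eq_iff]

theorem pairingInv_eq (i j : Fin (X.dim + 1)) :
    pairingInv X (Sum.inl i) (Sum.inl j) = if j = co i then (deg X)⁻¹ else 0 := by
  change (if (i : ℕ) + j = X.dim then (deg X)⁻¹ else 0) = _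
  simp only [add_eq_iff]

theorem co_co (i : Fin (X.dim + 1)) : co (co i) = i := by
  apply Fin.ext
  change X.dim - (X.dim - i) = i
  omega

theorem inv_pairing (l m : Fin (X.dim + 1)) :
    ∑ k : Fin (X.dim + 1), pairingInv X (Sum.inl l) (Sum.inl k) *
      pairing X (Sum.inl k) (Sum.inl m) = if l = m then 1 else 0 := by
  rw [Finset.sum_eq_single (co l)]
  · rw [pairingInv_eq, pairing_eq, if_pos rfl, co_co]
    by_cases h : l = m
    · rw [if_pos h.symm, if_pos h, inv_mul_cancel₀ (deg_ne X)]
    · rw [if_neg (Ne.symm h), if_neg h, mul_zero]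
  · intro b _ hb
    rw [pairingInv_eq, if_neg hb, zero_mul]
  · simp

/-- raising and lowering an index -/
theorem low_raise (f : Fin (X.dim + 1) → RR X) (m : Fin (X.dim + 1)) :
    ∑ k : Fin (X.dim + 1), cst X (pairing X (Sum.inl k) (Sum.inl m)) *
      ∑ l : Fin (X.dim + 1), pairingInv X (Sum.inl l) (Sum.inl k) • f l = f m := by
  simp only [Finset.mul_sum, smul_eq_cst]
  rw [Finset.sum_comm]
  calc ∑ l : Fin (X.dim + 1), ∑ k : Fin (X.dim + 1),
        cst X (pairing X (Sum.inl k) (Sum.inl m)) *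
          (cst X (pairingInv X (Sum.inl l) (Sum.inl k)) * f l)
      = ∑ l : Fin (X.dim + 1), cst X (if l = m then 1 else 0) * f l := by
        refine Finset.sum_congr rfl fun l _ => ?_
        rw [← inv_pairing l m, cst_sum, Finset.sum_mul]
        refine Finset.sum_congr rfl fun k _ => ?_
        rw [cst_mul]; ring
    _ = f m := by
        rw [Finset.sum_eq_single m]
        · rw [if_pos rfl, cst_one, one_mul]
        · intro b _ hb
          rw [if_neg hb, cst_zero, zero_mul]
        · simp

theorem cor_swap1 (hF : IsGW X F) (i j m : Fin (X.dim + 1)) :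
    cor F 0 [hpow X i, hpow X j, hpow X m] = cor F 0 [hpow X j, hpow X i, hpow X m] := by
  funext d L
  have h := hF.symm 0 d [] (hpow X m :: L) (hpow X i) (hpow X j)
  have hs : sgn (par X (hpow X i).1) (par X (hpow X j).1) = 1 := by
    simp [hpow, par, sgn]
  rw [hs, one_mul] at h
  exact h

theorem cor_swap2 (hF : IsGW X F) (i j m : Fin (X.dim + 1)) :
    cor F 0 [hpow X i, hpow X j, hpow X m] = cor F 0 [hpow X i, hpow X m, hpow X j] := by
  funext d L
  have h := hF.symm 0 d [hpow X i] L (hpow X j) (hpow X m)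
  have hs : sgn (par X (hpow X j).1) (par X (hpow X m).1) = 1 := by
    simp [hpow, par, sgn]
  rw [hs, one_mul] at h
  exact h

/-- the three-point function is cyclic -/
theorem cor_cyc (hF : IsGW X F) (i j m : Fin (X.dim + 1)) :
    cor F 0 [hpow X i, hpow X j, hpow X m] = cor F 0 [hpow X j, hpow X m, hpow X i] := by
  rw [cor_swap1 hF, cor_swap2 hF]

theorem low_qc (i j m : Fin (X.dim + 1)) :
    ∑ k : Fin (X.dim + 1), cst X (pairing X (Sum.inl k) (Sum.inl m)) * qc F i j k =
      ser (cor F 0 [hpow X i, hpow X j, hpow X m]) :=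
  low_raise (fun l => ser (cor F 0 [hpow X i, hpow X j, hpow X l])) m

variable (hF : IsGW X F) (h1 : IsGenusOne F)

theorem eta_def (x y : AA hF h1) : eta hF h1 x y =
    ∑ i : Fin (X.dim + 1), ∑ j : Fin (X.dim + 1),
      cst X (pairing X (Sum.inl i) (Sum.inl j)) * (x i * y j) := rfl

/-- **[Q3]** -/
theorem eta_symm (x y : AA hF h1) : eta hF h1 x y = eta hF h1 y x := by
  rw [eta_def, eta_def, Finset.sum_comm]
  refine Finset.sum_congr rfl fun i _ => Finset.sum_congr rfl fun j _ => ?_
  rw [pairing_symm, mul_comm (x j)]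

theorem eta_mul_left (x y z : AA hF h1) : eta hF h1 (x * y) z =
    ∑ i : Fin (X.dim + 1), ∑ j : Fin (X.dim + 1), ∑ m : Fin (X.dim + 1),
      x i * y j * z m * ser (cor F 0 [hpow X i, hpow X j, hpow X m]) := by
  rw [eta_def]
  have h : ∀ k : Fin (X.dim + 1), (x * y : AA hF h1) k =
      ∑ i : Fin (X.dim + 1), ∑ j : Fin (X.dim + 1), x i * y j * qc F i j k := fun k => rfl
  calc ∑ k : Fin (X.dim + 1), ∑ m : Fin (X.dim + 1),
        cst X (pairing X (Sum.inl k) (Sum.inl m)) * ((x * y : AA hF h1) k * z m)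
      = ∑ k : Fin (X.dim + 1), ∑ m : Fin (X.dim + 1), ∑ i : Fin (X.dim + 1),
          ∑ j : Fin (X.dim + 1), x i * y j * z m *
            (cst X (pairing X (Sum.inl k) (Sum.inl m)) * qc F i j k) := by
        refine Finset.sum_congr rfl fun k _ => Finset.sum_congr rfl fun m _ => ?_
        rw [h k, Finset.sum_mul, Finset.mul_sum]
        refine Finset.sum_congr rfl fun i _ => ?_
        rw [Finset.sum_mul, Finset.mul_sum]
        refine Finset.sum_congr rfl fun j _ => ?_
        ring
    _ = ∑ i : Fin (X.dim + 1), ∑ j : Fin (X.dim + 1), ∑ m : Fin (X.dim + 1),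
          ∑ k : Fin (X.dim + 1), x i * y j * z m *
            (cst X (pairing X (Sum.inl k) (Sum.inl m)) * qc F i j k) := by
        rw [Finset.sum_comm]
        have e1 : ∀ m : Fin (X.dim + 1), ∑ k : Fin (X.dim + 1), ∑ i : Fin (X.dim + 1),
            ∑ j : Fin (X.dim + 1), x i * y j * z m *
              (cst X (pairing X (Sum.inl k) (Sum.inl m)) * qc F i j k) =
            ∑ i : Fin (X.dim + 1), ∑ j : Fin (X.dim + 1), ∑ k : Fin (X.dim + 1),
              x i * y j * z m *
              (cst X (pairing X (Sum.inl k) (Sum.inl m)) * qc F i j k) := by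
          intro m
          rw [Finset.sum_comm]
          refine Finset.sum_congr rfl fun i _ => ?_
          rw [Finset.sum_comm]
        rw [Finset.sum_congr rfl fun m _ => e1 m, Finset.sum_comm]
        refine Finset.sum_congr rfl fun i _ => ?_
        rw [Finset.sum_comm]
    _ = _ := by
        refine Finset.sum_congr rfl fun i _ => Finset.sum_congr rfl fun j _ =>
          Finset.sum_congr rfl fun m _ => ?_
        rw [← Finset.mul_sum, low_qc]

/-- **[Q3]** -/
theorem eta_inv (x y z : AA hF h1) : eta hF h1 (x * y) z = eta hF h1 x (y * z) := by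
  rw [eta_symm hF h1 x (y * z), eta_mul_left, eta_mul_left]
  have e1 : ∀ i : Fin (X.dim + 1),
      (∑ j : Fin (X.dim + 1), ∑ m : Fin (X.dim + 1),
        x i * y j * z m * ser (cor F 0 [hpow X i, hpow X j, hpow X m])) =
      ∑ j : Fin (X.dim + 1), ∑ m : Fin (X.dim + 1),
        y j * z m * x i * ser (cor F 0 [hpow X j, hpow X m, hpow X i]) := by
    intro i
    refine Finset.sum_congr rfl fun j _ => Finset.sum_congr rfl fun m _ => ?_
    rw [cor_cyc hF]
    ring
  rw [Finset.sum_congr rfl fun i _ => e1 i, Finset.sum_comm]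
  refine Finset.sum_congr rfl fun j _ => ?_
  rw [Finset.sum_comm]

theorem eta_single (x : AA hF h1) (j : Fin (X.dim + 1)) :
    eta hF h1 x (QA.bas (consts hF h1) j) = cst X (deg X) * x (co j) := by
  rw [eta_def, Finset.sum_eq_single (co j)]
  · rw [Finset.sum_eq_single j]
    · rw [QA.bas_apply, if_pos rfl, mul_one, pairing_eq, co_co, if_pos rfl]
    · intro b _ hb
      rw [QA.bas_apply, if_neg hb, mul_zero, mul_zero]
    · simp
  · intro i _ hi
    refine Finset.sum_eq_zero fun b _ => ?_
    rw [QA.bas_apply, pairing_eq]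
    by_cases hb : b = j
    · have : b ≠ co i := by
        intro h
        apply hi
        rw [← hb, h, co_co]
      rw [if_neg this, cst_zero, zero_mul]
    · rw [if_neg hb, mul_zero, mul_zero]
  · simp

/-- **[Q3]** -/
theorem eta_nondeg (x : AA hF h1) (h : ∀ y, eta hF h1 x y = 0) : x = 0 := by
  funext i
  have h2 := h (QA.bas (consts hF h1) (co i))
  rw [eta_single, co_co] at h2
  have h3 : cst X (deg X)⁻¹ * (cst X (deg X) * x i) = 0 := by rw [h2, mul_zero]
  rw [← mul_assoc, ← cst_mul, inv_mul_cancel₀ (deg_ne X), cst_one, one_mul] at h3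
  exact h3

/-- **[Q3]** -/
theorem eta_mu (x y : AA hF h1) :
    eta hF h1 ((muO hF h1).1 x) y = - eta hF h1 x ((muO hF h1).1 y) := by
  have hm : ∀ (z : AA hF h1) (k : Fin (X.dim + 1)), ((muO hF h1).1 z : AA hF h1) k =
      ((k : ℕ) : RR X) * z k - cst X ((X.dim : ℂ) / 2) * z k := fun z k => rfl
  have h2 : ((X.dim : ℕ) : RR X) = cst X ((X.dim : ℂ) / 2) + cst X ((X.dim : ℂ) / 2) := by
    rw [← cst_add, add_halves, cst_natCast]
  rw [eta_def, eta_def, ← Finset.sum_neg_distrib]
  refine Finset.sum_congr rfl fun i _ => ?_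
  rw [← Finset.sum_neg_distrib]
  refine Finset.sum_congr rfl fun j _ => ?_
  rw [hm, hm]
  by_cases h : (i : ℕ) + j = X.dim
  · have h3 : ((i : ℕ) : RR X) + ((j : ℕ) : RR X) = ((X.dim : ℕ) : RR X) := by
      rw [← Nat.cast_add, h]
    rw [h2] at h3
    have h4 : ((i : ℕ) : RR X) =
        cst X ((X.dim : ℂ) / 2) + cst X ((X.dim : ℂ) / 2) - ((j : ℕ) : RR X) := by
      rw [← h3]; ring
    rw [h4]
    ring
  · have h3 : pairing X (Sum.inl i) (Sum.inl j) = 0 := by
      change (if (i : ℕ) + j = X.dim then deg X else 0) = 0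
      rw [if_neg h]
    rw [h3, cst_zero]
    ring

/-- **[Q3]** the vector representing the character of the primitive part -/
theorem eta_lam (v : X.Prim) : ∃ s : AA hF h1, (∀ x, eta hF h1 s x = (lam hF h1 x) v) ∧
    (2 * X.hodgeP v ≠ X.dim → (lam hF h1 s) v = 0) := by
  refine ⟨fun k => ∑ l : Fin (X.dim + 1), pairingInv X (Sum.inl l) (Sum.inl k) • lamc h1 l,
    fun x => ?_, fun hv => ?_⟩
  · change ∑ k : Fin (X.dim + 1), ∑ m : Fin (X.dim + 1),
      cst X (pairing X (Sum.inl k) (Sum.inl m)) *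
        ((∑ l : Fin (X.dim + 1), pairingInv X (Sum.inl l) (Sum.inl k) • lamc h1 l) * x m) =
      ∑ i, x i * lamc h1 i
    rw [Finset.sum_comm]
    refine Finset.sum_congr rfl fun m _ => ?_
    conv_rhs => rw [← low_raise (fun l => lamc h1 l) m]
    rw [Finset.mul_sum]
    refine Finset.sum_congr rfl fun k _ => ?_
    ring
  · have h := lamc_isotropic hF h1 v hv
    change ∑ k : Fin (X.dim + 1),
      (∑ l : Fin (X.dim + 1), pairingInv X (Sum.inl l) (Sum.inl k) • lamc h1 l) * lamc h1 k = 0
    rw [Finset.sum_comm] at h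
    rw [← h]
    refine Finset.sum_congr rfl fun k _ => ?_
    rw [Finset.sum_mul]
    refine Finset.sum_congr rfl fun l _ => ?_
    rw [smul_mul_assoc]

end Vale.Agent.P269.G1.H333
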